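import Vale.Agent.P096.Linear.Statement

/-!
# P096: the vocabulary of Q1
-/

namespace Vale.Agent.P096.Full

universe u

variable {H : Type u} [NormedAddCommGroup H] [InnerProductSpace ℂ H] [CompleteSpace H]

/-- The closed unit ball of `M`. -/
def unitBall (M : VonNeumannAlgebra H) : Set (H →L[ℂ] H) := {x | x ∈ M ∧ ‖x‖ ≤ 1}

/-- The Kadison-Kastler distance. -/
noncomputable def kkDist (M N : VonNeumannAlgebra H) : ℝ :=
  Metric.hausdorffDist (unitBall M) (unitBall N)

/-- `u M u* = N`. -/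
def CarriesOnto (u : H →L[ℂ] H) (M N : VonNeumannAlgebra H) : Prop :=
  Linear.conjBy u '' (M : Set (H →L[ℂ] H)) = (N : Set (H →L[ℂ] H))

/-- A unitary nearer than `ε` to one carries `M` onto `N`. -/
def ConjugateNearOne (ε : ℝ) (M N : VonNeumannAlgebra H) : Prop :=
  ∃ u ∈ unitary (H →L[ℂ] H), Linear.NearOne ε u ∧ CarriesOnto u M N

end Vale.Agent.P096.Full
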