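import Vale.Agent.P096.Full.Statement
import Vale.Agent.P096.Linear.Main
import Vale.Agent.P096.III.Reduce.Sep

/-!
# P096: Q1 from the linear maps on separable spaces
-/

namespace Vale.Agent.P096.Full

universe u

variable {H : Type u} [NormedAddCommGroup H] [InnerProductSpace ℂ H] [CompleteSpace H]

theorem unitBall_nonempty (M : VonNeumannAlgebra H) : (unitBall M).Nonempty :=
  ⟨0, zero_mem M, by rw [norm_zero]; exact zero_le_one⟩

theorem isBounded_unitBall (M : VonNeumannAlgebra H) : Bornology.IsBounded (unitBall M) :=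
  Metric.isBounded_closedBall.subset fun x hx => (mem_closedBall_zero_iff.2 hx.2)

/-- A distance less than `δ` puts each ball within `δ` of the other. -/
theorem near_of_kkDist_lt {M N : VonNeumannAlgebra H} {δ : ℝ} (h : kkDist M N < δ) :
    Near M N δ := by
  have hfin := Metric.hausdorffEDist_ne_top_of_nonempty_of_bounded (unitBall_nonempty M)
    (unitBall_nonempty N) (isBounded_unitBall M) (isBounded_unitBall N)
  refine ⟨fun x hx hx1 => ?_, fun y hy hy1 => ?_⟩
  · obtain ⟨y, hy, hd⟩ := Metric.exists_dist_lt_of_hausdorffDist_lt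
      (show x ∈ unitBall M from ⟨hx, hx1⟩) h hfin
    exact ⟨y, hy.1, hy.2, by rw [← dist_eq_norm]; exact hd.le⟩
  · obtain ⟨x, hx, hd⟩ := Metric.exists_dist_lt_of_hausdorffDist_lt'
      (show y ∈ unitBall N from ⟨hy, hy1⟩) h hfin
    exact ⟨x, hx.1, hx.2, by rw [← dist_eq_norm, dist_comm]; exact hd.le⟩

/-- Q1 from the linear maps on separable spaces. -/
theorem strong_of_sepLinear
    (h : ∃ C ε₀ : ℝ, 0 ≤ C ∧ 0 < ε₀ ∧ III.Reduce.SepLinear.{u} C ε₀) :
    ∀ ε : ℝ, 0 < ε → ∃ δ : ℝ, 0 < δ ∧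
      ∀ (H : Type u) [NormedAddCommGroup H] [InnerProductSpace ℂ H] [CompleteSpace H]
        (M N : VonNeumannAlgebra H), kkDist M N < δ → ConjugateNearOne ε M N := by
  obtain ⟨C, ε₀, hC, hε₀, hS⟩ := h
  obtain ⟨D, η₀, hD, hη₀, hB⟩ := Linear.stmtB.{u}
  intro ε hε
  set c := 10 * C + 1 with hc
  have hc0 : 0 < c := by positivity
  refine ⟨min (ε₀ / 10) (min η₀ (ε / (D + 1)) / c), by positivity, ?_⟩
  intro H _ _ _ M N hlt
  set δ := min (ε₀ / 10) (min η₀ (ε / (D + 1)) / c)
  have hδ0 : 0 ≤ δ := by positivity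
  have hn := near_of_kkDist_lt hlt
  have h10 : 10 * δ ≤ ε₀ := by
    have : δ ≤ ε₀ / 10 := min_le_left _ _
    linarith
  obtain ⟨L, hL⟩ := III.Reduce.nearLinear_of_separable hC hS hδ0 h10 hn
  have hcδ : c * δ ≤ min η₀ (ε / (D + 1)) := by
    have : δ ≤ min η₀ (ε / (D + 1)) / c := min_le_right _ _
    rw [le_div_iff₀ hc0] at this
    linarith
  have hle : δ ≤ c * δ := le_mul_of_one_le_left hδ0 (by rw [hc]; linarith)
  have mono : ∀ {A B : VonNeumannAlgebra H}, BallNear A B δ → BallNear A B (c * δ) :=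
    fun hAB x hx hx1 => (hAB x hx hx1).imp fun y hy => ⟨hy.1, hy.2.1, hy.2.2.trans hle⟩
  obtain ⟨u, hu, hu1, hc1, hc2⟩ := hB H M N (c * δ) (by positivity)
    (hcδ.trans (min_le_left _ _)) ⟨mono hn.1, mono hn.2⟩ ⟨L, fun x => (hL x).trans (by
      refine mul_le_mul_of_nonneg_right ?_ (norm_nonneg x)
      rw [hc]
      linarith [mul_nonneg hC hδ0])⟩
  refine ⟨u, hu, ?_, ?_⟩
  · show ‖u - 1‖ < ε
    refine hu1.trans_lt ?_
    refine (mul_le_mul_of_nonneg_left (hcδ.trans (min_le_right _ _)) hD).trans_lt ?_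
    rw [mul_div, div_lt_iff₀ (by positivity)]
    linarith [mul_comm D ε]
  · refine Set.Subset.antisymm ?_ fun y hy => ⟨star u * y * u, hc2 y hy, ?_⟩
    · rintro _ ⟨x, hx, rfl⟩
      exact hc1 x hx
    · show u * (star u * y * u) * star u = y
      rw [show u * (star u * y * u) * star u = u * star u * y * (u * star u) by noncomm_ring,
        hu.2, one_mul, mul_one]

end Vale.Agent.P096.Full
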